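import Vale.Agent.P224.S9.K.K0
import Vale.Agent.P224.S9.K.K1
import Vale.Agent.P224.S9.K.K2
import Vale.Agent.P224.S9.K.K3
import Vale.Agent.P224.S9.K.K4
import Vale.Agent.P224.S9.K.K5
import Vale.Agent.P224.S9.K.K6
import Vale.Agent.P224.S9.K.K7
import Vale.Agent.P224.S9.K.K8
import Vale.Agent.P224.S9.K.K9
import Vale.Agent.P224.S9.K.K10
import Vale.Agent.P224.S9.K.K11
import Vale.Agent.P224.S9.K.K12
import Vale.Agent.P224.S9.K.K13
import Vale.Agent.P224.S9.K.K14
import Vale.Agent.P224.S9.K.K15
import Vale.Agent.P224.S9.K.K16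
import Vale.Agent.P224.S9.K.K17
import Vale.Agent.P224.S9.TSum

/-!
The sum over the Bernstein coefficients.
-/

namespace Vale.Agent.P224.S9.K.TS

open Vale.Agent.P224.UE Vale.Agent.P224.POS Vale.Agent.P224.PO Vale.Agent.P224.S9
open scoped RealInnerProductSpace

noncomputable section

/-- the polynomial in `s, τ, u, v, T` -/
def Q : PE :=
  .add (.add (.mul (.v 3) (.mul (.v 3) (.add (.add (.c 539772980600000) (.mul (.v 0) (.add (.c (-1304929717840000)) (.mul (.v 0) (.add (.c 58707187449960000) (.mul (.v 0) (.c (-42000000)))))))) (.mul (.v 1) (.add (.add (.c (-9965279799440000)) (.mul (.v 0) (.add (.c (-34452110980560000)) (.mul (.v 0) (.c (-10096415323680000)))))) (.mul (.v 1) (.add (.c 133058087769600000) (.mul (.v 0) (.add (.c 581669232036480000) (.mul (.v 0) (.c 487094501859840000))))))))))) (.mul (.v 2) (.mul (.v 2) (.add (.add (.add (.add (.c 20773164478507420000) (.mul (.v 0) (.add (.c 7413843637249840000) (.mul (.v 0) (.add (.c (-6349953112546680000)) (.mul (.v 0) (.c 2354082155774440000))))))) (.mul (.v 1) (.add (.add (.c 1897839579354600000)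 (.mul (.v 0) (.add (.c (-10059562746865520000)) (.mul (.v 0) (.add (.c 2221771930086800000) (.mul (.v 0) (.add (.c (-632530652844160000)) (.mul (.v 0) (.add (.c 2156000000) (.mul (.v 0) (.c 168000000))))))))))) (.mul (.v 1) (.add (.add (.c 43924962751373480000) (.mul (.v 0) (.add (.c 120761805303784400000) (.mul (.v 0) (.add (.c (-21811778245172160000)) (.mul (.v 0) (.c 16256855583763200000))))))) (.mul (.v 1) (.add (.c 495664747475520000) (.mul (.v 0) (.add (.c (-53835414873145920000)) (.mul (.v 0) (.c 16256855583763200000))))))))))) (.mul (.v 3) (.add (.add (.c (-5953948197544760000)) (.mul (.v 0) (.add (.c (-2889228113165240000)) (.mul (.v 0) (.c 2354082165584240000))))) (.mul (.v 1) (.add (.add (.c (-6621225782057880000)) (.mul (.v 0) (.add (.c (-1286444317655280000)) (.mul (.v 0) (.c (-632530658309760000)))))) (.mul (.v 1) (.add (.c 495664656419520000) (.mul (.v 0) (.add (.c (-53835414873145920000)) (.mul (.v 0) (.c 16256855583763200000))))))))))) (.mul (.v 2) (.mul (.v 2) (.add (.add (.c (-171472000000)) (.mul (.v 0) (.c (-17080000000))))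 (.mul (.v 1) (.c (-138801600000)))))))))) (.mul (.v 4) (.add (.add (.mul (.v 3) (.mul (.v 3) (.add (.add (.c (-116775616440000)) (.mul (.v 0) (.add (.c 2435073131400000) (.mul (.v 0) (.add (.c (-92851063679360000)) (.mul (.v 0) (.add (.c (-478375936216640000)) (.mul (.v 0) (.c 84000000))))))))) (.mul (.v 1) (.add (.add (.c 2622487978320000) (.mul (.v 0) (.add (.c 54226343207120000) (.mul (.v 0) (.add (.c 287315264654320000) (.mul (.v 0) (.c (-10096415313600000)))))))) (.mul (.v 1) (.add (.c (-34332997063680000)) (.mul (.v 0) (.add (.c (-358770877879680000)) (.mul (.v 0) (.add (.c 2378266367178240000) (.mul (.v 0) (.c 1461283505579520000))))))))))))) (.mul (.v 2) (.mul (.v 2) (.add (.add (.add (.add (.c 21651316238950160000) (.mul (.v 0) (.add (.c (-11586019429335260000)) (.mul (.v 0) (.add (.c 3199863556582840000) (.mul (.v 0) (.add (.c 21867508855797920000) (.mul (.v 0) (.c 7062246509750320000))))))))) (.mul (.v 1) (.add (.add (.c (-100884990737070400000)) (.mul (.v 0) (.add (.c (-62057392263715240000)) (.mul (.v 0) (.add (.c 27416077691400160000)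 (.mul (.v 0) (.add (.c 12834325789409880000) (.mul (.v 0) (.add (.c (-1897592843119680000)) (.mul (.v 0) (.add (.c (-67384800000)) (.mul (.v 0) (.c (-336000000)))))))))))))) (.mul (.v 1) (.add (.add (.c 263838627127962880000) (.mul (.v 0) (.add (.c 132184005484135360000) (.mul (.v 0) (.add (.c 958869360555155280000) (.mul (.v 0) (.add (.c (-323353236113369280000)) (.mul (.v 0) (.c 81284277918816000000))))))))) (.mul (.v 1) (.add (.c 304792578004734400000) (.mul (.v 0) (.add (.c 740000071181761600000) (.mul (.v 0) (.add (.c (-484736480569857600000)) (.mul (.v 0) (.c 81284277918816000000))))))))))))) (.mul (.v 3) (.add (.add (.c 11358837470816360000) (.mul (.v 0) (.add (.c (-37472640391465720000)) (.mul (.v 0) (.add (.c (-31893689370801720000)) (.mul (.v 0) (.c 7062246495412920000))))))) (.mul (.v 1) (.add (.add (.c 32275025823738880000) (.mul (.v 0) (.add (.c (-11406232531379840000)) (.mul (.v 0) (.add (.c 2309679216171600000) (.mul (.v 0) (.c (-1897591974929280000)))))))) (.mul (.v 1) (.add (.c 304792609064428800000) (.mul (.v 0) (.add (.c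 740000071324987200000) (.mul (.v 0) (.add (.c (-484736480569857600000)) (.mul (.v 0) (.c 81284277918816000000))))))))))))) (.mul (.v 2) (.mul (.v 2) (.add (.add (.c (-176590738075136000000)) (.mul (.v 0) (.add (.c 7018872000000) (.mul (.v 0) (.c 34160000000))))) (.mul (.v 1) (.add (.c 47333456800000) (.mul (.v 0) (.c 203750400000))))))))))) (.mul (.v 4) (.add (.add (.mul (.v 3) (.mul (.v 3) (.add (.add (.c 1730877163400000) (.mul (.v 0) (.add (.c (-45682961047920000)) (.mul (.v 0) (.add (.c (-898183215508320000)) (.mul (.v 0) (.add (.c 5860886564131760000) (.mul (.v 0) (.add (.c 1082884700370760000) (.mul (.v 0) (.c (-42000000)))))))))))) (.mul (.v 1) (.add (.add (.c (-2782254257440000)) (.mul (.v 0) (.add (.c 863198655967200000) (.mul (.v 0) (.add (.c (-2930891287885120000)) (.mul (.v 0) (.add (.c (-1315389206282480000)) (.mul (.v 0) (.c 90867737879520000))))))))) (.mul (.v 1) (.add (.c (-99241060343040000)) (.mul (.v 0) (.add (.c (-8428360877274240000)) (.mul (.v 0) (.add (.c 729762305852160000) (.mul (.v 0) (.add (.c 3409502789306880000)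 (.mul (.v 0) (.c (-4383850516738560000)))))))))))))))) (.mul (.v 2) (.mul (.v 2) (.add (.add (.add (.add (.c (-229053694438631160000)) (.mul (.v 0) (.add (.c (-560497018248915160000)) (.mul (.v 0) (.add (.c (-192527685383994940000)) (.mul (.v 0) (.add (.c (-84684030558736560000)) (.mul (.v 0) (.add (.c 42781866458226840000) (.mul (.v 0) (.c (-21186739486823960000)))))))))))) (.mul (.v 1) (.add (.add (.c 511212241296457680000) (.mul (.v 0) (.add (.c 573237730059185240000) (.mul (.v 0) (.add (.c (-110017757671455760000)) (.mul (.v 0) (.add (.c (-42926319905266000000)) (.mul (.v 0) (.add (.c (-48960858893533160000)) (.mul (.v 0) (.add (.c 5692781797160640000) (.mul (.v 0) (.add (.c 128301600000) (.mul (.v 0) (.c 168000000))))))))))))))) (.mul (.v 1) (.add (.add (.c 510418959278793320000) (.mul (.v 0) (.add (.c (-1429705559569130200000)) (.mul (.v 0) (.add (.c (-8380859136746793480000)) (.mul (.v 0) (.add (.c 2168506819585795360000) (.mul (.v 0) (.add (.c (-22116279986861760000)) (.mul (.v 0) (.c (-97541133502579200000)))))))))))) (.mul (.v 1)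 (.add (.c (-8142070382935370560000)) (.mul (.v 0) (.add (.c (-3941051670151597120000)) (.mul (.v 0) (.add (.c 1382487053680732160000) (.mul (.v 0) (.add (.c 168127947806051520000) (.mul (.v 0) (.c (-97541133502579200000)))))))))))))))) (.mul (.v 3) (.add (.add (.c 269678027763347840000) (.mul (.v 0) (.add (.c 294941578235298680000) (.mul (.v 0) (.add (.c (-281169436655063040000)) (.mul (.v 0) (.add (.c 139922085847733840000) (.mul (.v 0) (.c (-21186739482296360000)))))))))) (.mul (.v 1) (.add (.add (.c (-81663509178021400000)) (.mul (.v 0) (.add (.c 57250787973643880000) (.mul (.v 0) (.add (.c 42490575468747000000) (.mul (.v 0) (.add (.c (-17386973442703200000)) (.mul (.v 0) (.c 5692775924787840000))))))))) (.mul (.v 1) (.add (.c (-7525609814825948160000)) (.mul (.v 0) (.add (.c (-3941051719701035520000)) (.mul (.v 0) (.add (.c 1382487053628562560000) (.mul (.v 0) (.add (.c 168127947806051520000) (.mul (.v 0) (.c (-97541133502579200000)))))))))))))))) (.mul (.v 2) (.mul (.v 2) (.add (.add (.c (-990031411220527200000)) (.mul (.v 0) (.add (.c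 (-175307044664942400000)) (.mul (.v 0) (.add (.c (-13586440000000)) (.mul (.v 0) (.c (-17080000000)))))))) (.mul (.v 1) (.add (.c 616459630526180000000) (.mul (.v 0) (.add (.c (-69829832800000)) (.mul (.v 0) (.c (-64948800000)))))))))))))) (.mul (.v 4) (.add (.add (.mul (.v 3) (.mul (.v 3) (.add (.add (.c (-20434023109023200)) (.mul (.v 0) (.add (.c 371624183744800000) (.mul (.v 0) (.add (.c 10294840181206060160) (.mul (.v 0) (.add (.c (-48844097443700160000)) (.mul (.v 0) (.add (.c 5680857259059360000) (.mul (.v 0) (.c (-965470341891440000)))))))))))) (.mul (.v 1) (.add (.add (.c 52133615144800000) (.mul (.v 0) (.add (.c (-7901502223874560000)) (.mul (.v 0) (.add (.c 19704195331862720000) (.mul (.v 0) (.add (.c 10152291365831440000) (.mul (.v 0) (.add (.c (-657172706723120000)) (.mul (.v 0) (.c (-111060568523520000)))))))))))) (.mul (.v 1) (.add (.c 704403177508540800) (.mul (.v 0) (.add (.c 52223384521465920000) (.mul (.v 0) (.add (.c (-119811619895204160000)) (.mul (.v 0) (.add (.c 64721290295088000000) (.mul (.v 0) (.add (.c 9060707386684800000)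 (.mul (.v 0) (.c 2435472509299200000))))))))))))))))) (.mul (.v 2) (.mul (.v 2) (.add (.add (.add (.add (.c 1161608058849402827040) (.mul (.v 0) (.add (.c 1045569537780739160000) (.mul (.v 0) (.add (.c 1211791309398063749440) (.mul (.v 0) (.add (.c 1955470817198213420000) (.mul (.v 0) (.add (.c (-1444215688272627480000)) (.mul (.v 0) (.add (.c 237570035353134400000) (.mul (.v 0) (.c 11770410821299200000))))))))))))) (.mul (.v 1) (.add (.add (.c (-2550867693304878080000)) (.mul (.v 0) (.add (.c (-693211182458403163520)) (.mul (.v 0) (.add (.c 496530282797534440000) (.mul (.v 0) (.add (.c (-817713242464355440000)) (.mul (.v 0) (.add (.c 677200841870582400000) (.mul (.v 0) (.add (.c (-66133659399192000000)) (.mul (.v 0) (.add (.c (-3162662453585600000)) (.mul (.v 0) (.c (-63072800000)))))))))))))))) (.mul (.v 1) (.add (.add (.c 6356037393033130235200) (.mul (.v 0) (.add (.c 4955257222756221640000) (.mul (.v 0) (.add (.c 48537031094403231240000) (.mul (.v 0) (.add (.c (-18286712379019596960000)) (.mul (.v 0) (.add (.c (-328679582652993600000))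 (.mul (.v 0) (.c 883929320725550400000))))))))))) (.mul (.v 1) (.add (.c 48471663011595994240000) (.mul (.v 0) (.add (.c 6808147351588813440000) (.mul (.v 0) (.add (.c 2654016737583032640000) (.mul (.v 0) (.add (.c (-4891021341889979520000)) (.mul (.v 0) (.c 887091974017099200000))))))))))))))) (.mul (.v 3) (.add (.add (.add (.c (-2211553966976610200000)) (.mul (.v 0) (.add (.c (-1770379496647145777920)) (.mul (.v 0) (.add (.c 3603889055967707360000) (.mul (.v 0) (.add (.c (-1634006649902978960000)) (.mul (.v 0) (.add (.c 190730289190845600000) (.mul (.v 0) (.c 11770410821299200000))))))))))) (.mul (.v 1) (.add (.add (.c 577428911390667083200) (.mul (.v 0) (.add (.c (-920509862504578360000)) (.mul (.v 0) (.add (.c (-164351995054362360000)) (.mul (.v 0) (.add (.c 290038324970324000000) (.mul (.v 0) (.add (.c (-83674516815590400000)) (.mul (.v 0) (.c (-3162653291548800000)))))))))))) (.mul (.v 1) (.add (.c 48197724921095178240000) (.mul (.v 0) (.add (.c 5934828568962464640000) (.mul (.v 0) (.add (.c 2654016756072776640000) (.mul (.v 0) (.add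 (.c (-4891021341889979520000)) (.mul (.v 0) (.c 887091974017099200000))))))))))))) (.mul (.v 3) (.c 19082012189607100800))))) (.mul (.v 2) (.mul (.v 2) (.add (.add (.c 1445024944500362678400) (.mul (.v 0) (.add (.c 2700645158538370400000) (.mul (.v 0) (.add (.c 525278286068110400000) (.mul (.v 0) (.c 6739040000000))))))) (.mul (.v 1) (.add (.c (-273916422752033600000)) (.mul (.v 0) (.add (.c (-873317632147755200000)) (.mul (.v 0) (.c 22496376000000))))))))))))) (.mul (.v 4) (.add (.add (.mul (.v 3) (.mul (.v 3) (.add (.add (.c 136160214286063200) (.mul (.v 0) (.add (.c (-1506805856996257200)) (.mul (.v 0) (.add (.c (-44702236597289412160)) (.mul (.v 0) (.add (.c 199550353310136122560) (.mul (.v 0) (.add (.c (-59936803967067160000)) (.mul (.v 0) (.add (.c 8833266087540160000) (.mul (.v 0) (.c 302254390287360000))))))))))))) (.mul (.v 1) (.add (.add (.c (-259503738214000000)) (.mul (.v 0) (.add (.c 32039040903430400000) (.mul (.v 0) (.add (.c (-72808366855351120000)) (.mul (.v 0) (.add (.c (-33536149825907680000)) (.mul (.v 0) (.add (.c 2428073400229680000)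 (.mul (.v 0) (.add (.c 421783662464640000) (.mul (.v 0) (.c 40385661281280000))))))))))))) (.mul (.v 1) (.add (.c (-2919408234589180800)) (.mul (.v 0) (.add (.c (-165714318058510627200)) (.mul (.v 0) (.add (.c 532698922148702400000) (.mul (.v 0) (.add (.c (-535383443449149120000)) (.mul (.v 0) (.add (.c 107442156758952960000) (.mul (.v 0) (.c (-8119698781340160000)))))))))))))))))) (.mul (.v 2) (.mul (.v 2) (.add (.add (.add (.add (.c (-3571533382685849915040)) (.mul (.v 0) (.add (.c 3162658260666245378640) (.mul (.v 0) (.add (.c (-2381693779330671197440)) (.mul (.v 0) (.add (.c (-12412492659559640912960)) (.mul (.v 0) (.add (.c 7675222831304792680000) (.mul (.v 0) (.add (.c (-679231832457788960000)) (.mul (.v 0) (.c (-120123760729916160000)))))))))))))) (.mul (.v 1) (.add (.add (.c 8146997724322130296000) (.mul (.v 0) (.add (.c (-110373169069702172480)) (.mul (.v 0) (.add (.c (-5644586662541374280320)) (.mul (.v 0) (.add (.c 5720912149499141000000) (.mul (.v 0) (.add (.c (-2648420031596906560000)) (.mul (.v 0) (.add (.c 240273618533951520000)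 (.mul (.v 0) (.add (.c 5813739461070240000) (.mul (.v 0) (.c 4152388800000))))))))))))))) (.mul (.v 1) (.add (.add (.c (-38856086746886004395200)) (.mul (.v 0) (.add (.c 2180172966548803323200) (.mul (.v 0) (.add (.c (-138503205223395342960000)) (.mul (.v 0) (.add (.c 61399479224576574480000) (.mul (.v 0) (.add (.c 4083602064378278400000) (.mul (.v 0) (.c (-3533423924021160960000)))))))))))) (.mul (.v 1) (.add (.c (-120827958402461731200000)) (.mul (.v 0) (.add (.c 10496511507269379200000) (.mul (.v 0) (.add (.c (-20226969135205616000000)) (.mul (.v 0) (.add (.c 21464788493727936000000) (.mul (.v 0) (.c (-3539237389488460800000)))))))))))))))) (.mul (.v 3) (.add (.add (.add (.c 6913735727981430296000) (.mul (.v 0) (.add (.c 7600469980667280001920) (.mul (.v 0) (.add (.c (-16042036649396109390720)) (.mul (.v 0) (.add (.c 6451343633526265880000) (.mul (.v 0) (.add (.c (-364642914235781440000)) (.mul (.v 0) (.c (-120123760729916160000)))))))))))) (.mul (.v 1) (.add (.add (.c (-1802252394711435963200)) (.mul (.v 0) (.add (.c 4103146628600147691200)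 (.mul (.v 0) (.add (.c 234825877400138640000) (.mul (.v 0) (.add (.c (-1427479676204868720000)) (.mul (.v 0) (.add (.c 445095720911923200000) (.mul (.v 0) (.c 5813465467299840000))))))))))) (.mul (.v 1) (.add (.c (-128783439399806150400000)) (.mul (.v 0) (.add (.c 10884581486474875200000) (.mul (.v 0) (.add (.c (-19970110920688689600000)) (.mul (.v 0) (.add (.c 21464788493727936000000) (.mul (.v 0) (.c (-3539237389488460800000)))))))))))))) (.mul (.v 3) (.add (.c (-41054864202500860800)) (.mul (.v 0) (.c (-247350783583267200)))))))) (.mul (.v 2) (.mul (.v 2) (.add (.add (.c 814456032164710441600) (.mul (.v 0) (.add (.c (-28254260443341840105600)) (.mul (.v 0) (.add (.c (-2273371265681387200000)) (.mul (.v 0) (.c (-173380503328032000000)))))))) (.mul (.v 1) (.add (.c (-7955746988389022400000)) (.mul (.v 0) (.add (.c 388043774396717600000) (.mul (.v 0) (.c 256858001621575200000))))))))))))) (.mul (.v 4) (.add (.add (.mul (.v 3) (.mul (.v 3) (.add (.add (.c (-568007602988977840)) (.mul (.v 0) (.add (.c 3158255342718342400) (.mul (.v 0) (.add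 (.c 102093185389610382800) (.mul (.v 0) (.add (.c (-446827248221162735360)) (.mul (.v 0) (.add (.c 196815100785613375360) (.mul (.v 0) (.add (.c (-48799416532962760000)) (.mul (.v 0) (.c 3880561566813120000))))))))))))) (.mul (.v 1) (.add (.add (.c 808115438978400000) (.mul (.v 0) (.add (.c (-70777252054560800000)) (.mul (.v 0) (.add (.c 155874236748414240000) (.mul (.v 0) (.add (.c 55172029906798560000) (.mul (.v 0) (.add (.c (-2368172461192720000)) (.mul (.v 0) (.add (.c 1891464225577920000) (.mul (.v 0) (.c (-919029780224640000)))))))))))))) (.mul (.v 1) (.add (.c 5467704280164216000) (.mul (.v 0) (.add (.c 288600678347894179200) (.mul (.v 0) (.add (.c (-1058747518954169971200)) (.mul (.v 0) (.add (.c 1390344827701394880000) (.mul (.v 0) (.add (.c (-475643479741718400000)) (.mul (.v 0) (.c 33710492717717760000))))))))))))))))) (.mul (.v 2) (.mul (.v 2) (.add (.add (.add (.add (.c 6802318111522112438000) (.mul (.v 0) (.add (.c (-13344253334574227295040)) (.mul (.v 0) (.add (.c 1311367891157426265040) (.mul (.v 0) (.add (.c 32030297275049112210560)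 (.mul (.v 0) (.add (.c (-18098896207797886196160)) (.mul (.v 0) (.add (.c 430297039430744360000) (.mul (.v 0) (.c 520026156722338560000))))))))))))) (.mul (.v 1) (.add (.add (.c (-12658189404898136803200)) (.mul (.v 0) (.add (.c (-4105229289247186788800)) (.mul (.v 0) (.add (.c 21768953642402149350720) (.mul (.v 0) (.add (.c (-15946831501502376648320)) (.mul (.v 0) (.add (.c 5046314855280752760000) (.mul (.v 0) (.add (.c (-404246380625055360000)) (.mul (.v 0) (.add (.c 15667478087052960000) (.mul (.v 0) (.c (-108780319200000)))))))))))))))) (.mul (.v 1) (.add (.add (.c 71416430174079365896000) (.mul (.v 0) (.add (.c (-53535222886747672723200)) (.mul (.v 0) (.add (.c 203779926629851634371200) (.mul (.v 0) (.add (.c (-106518708710132759040000)) (.mul (.v 0) (.add (.c (-9802116860348030400000)) (.mul (.v 0) (.c 6521839070139408960000))))))))))) (.mul (.v 1) (.add (.add (.c 145710790865440133120000) (.mul (.v 0) (.add (.c (-58386764073838239040000)) (.mul (.v 0) (.add (.c 35903722037800344000000) (.mul (.v 0) (.add (.c (-39934020540031047360000))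 (.mul (.v 0) (.c 6506167107554452800000))))))))) (.mul (.v 1) (.c 265464221588658892800000))))))))) (.mul (.v 3) (.add (.add (.add (.c (-9672901256728679627200)) (.mul (.v 0) (.add (.c (-19486993435159815236800)) (.mul (.v 0) (.add (.c 36910190428038034797120) (.mul (.v 0) (.add (.c (-13347345690512191502720)) (.mul (.v 0) (.add (.c (-420295828560146840000)) (.mul (.v 0) (.c 520026156722338560000))))))))))) (.mul (.v 1) (.add (.add (.c 2358070039534274320000) (.mul (.v 0) (.add (.c (-7615366357374028867200)) (.mul (.v 0) (.add (.c (-647095199178385852800)) (.mul (.v 0) (.add (.c 3383079249417748160000) (.mul (.v 0) (.add (.c (-1095606475308051840000)) (.mul (.v 0) (.c 15671962584956160000))))))))))) (.mul (.v 1) (.add (.c 160649431742998981440000) (.mul (.v 0) (.add (.c (-48190360895663112000000)) (.mul (.v 0) (.add (.c 35789590149095664000000) (.mul (.v 0) (.add (.c (-39934020540031047360000)) (.mul (.v 0) (.c 6506167107554452800000))))))))))))) (.mul (.v 3) (.add (.c (-3532654793374344000)) (.mul (.v 0) (.add (.c 6211002618782179200) (.mul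 (.v 0) (.c (-26888699015511091200)))))))))) (.mul (.v 2) (.mul (.v 2) (.add (.add (.add (.add (.c 11771238468675779512000) (.mul (.v 0) (.add (.c 52110387824185579785600) (.mul (.v 0) (.add (.c 16151305529321341670400) (.mul (.v 0) (.c 562757518363544000000))))))) (.mul (.v 1) (.add (.add (.c 14940632013039151520000) (.mul (.v 0) (.add (.c 5772316700813074560000) (.mul (.v 0) (.c (-114127351644684000000)))))) (.mul (.v 1) (.c (-176976147725772595200000)))))) (.mul (.v 3) (.mul (.v 0) (.c (-4424403693144314880000))))) (.mul (.v 2) (.mul (.v 2) (.c (-88488073862886297600000))))))))))) (.mul (.v 4) (.add (.add (.mul (.v 3) (.mul (.v 3) (.add (.add (.c 1488503580265632320) (.mul (.v 0) (.add (.c (-2544177142538157440)) (.mul (.v 0) (.add (.c (-132142737246875598400)) (.mul (.v 0) (.add (.c 577876715180039654000) (.mul (.v 0) (.add (.c (-320856281515617405760)) (.mul (.v 0) (.add (.c 113827521643308664160) (.mul (.v 0) (.c (-14473157483796480000)))))))))))))) (.mul (.v 1) (.add (.add (.c (-1452510085330640000)) (.mul (.v 0) (.add (.c 90330099070027600000)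 (.mul (.v 0) (.add (.c (-198257782091340720000)) (.mul (.v 0) (.add (.c (-47572848849144640000)) (.mul (.v 0) (.add (.c (-799049133259440000)) (.mul (.v 0) (.add (.c (-11930963324394240000)) (.mul (.v 0) (.c 3327978939989760000))))))))))))) (.mul (.v 1) (.add (.c (-5241037098913056000)) (.mul (.v 0) (.add (.c (-272602260331823304000)) (.mul (.v 0) (.add (.c 1092966322823453923200) (.mul (.v 0) (.add (.c (-1670666224084999315200)) (.mul (.v 0) (.add (.c 745457121315506880000) (.mul (.v 0) (.c (-74721554758771200000)))))))))))))))))) (.mul (.v 2) (.mul (.v 2) (.add (.add (.add (.add (.c (-8257078343961567187200)) (.mul (.v 0) (.add (.c 18897910461097097014800) (.mul (.v 0) (.add (.c 2248399640662016869760) (.mul (.v 0) (.add (.c (-41832668995763481130960)) (.mul (.v 0) (.add (.c 22375962348042012445760) (.mul (.v 0) (.add (.c 785658634363262636640) (.mul (.v 0) (.c (-983983947671995200000)))))))))))))) (.mul (.v 1) (.add (.add (.c 8520684887951126867200) (.mul (.v 0) (.add (.c 14145377861359621744000) (.mul (.v 0) (.add (.c (-36814885805529419134400))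 (.mul (.v 0) (.add (.c 22633495233474378944320) (.mul (.v 0) (.add (.c (-5256783732275992936320)) (.mul (.v 0) (.add (.c 337180717635350400000) (.mul (.v 0) (.add (.c (-50808416636325600000)) (.mul (.v 0) (.c 1503061162400000))))))))))))))) (.mul (.v 1) (.add (.add (.c (-51440528935674676728000)) (.mul (.v 0) (.add (.c 97370293080405517672000) (.mul (.v 0) (.add (.c (-147194121212462594515200)) (.mul (.v 0) (.add (.c 104322127748411806579200) (.mul (.v 0) (.add (.c 6598304422708098240000) (.mul (.v 0) (.c (-5576719810868519040000)))))))))))) (.mul (.v 1) (.add (.add (.c (-72157525322585246720000)) (.mul (.v 0) (.add (.c 76337380473548473600000) (.mul (.v 0) (.add (.c (-17682870329388685760000)) (.mul (.v 0) (.add (.c 33208156502332338240000) (.mul (.v 0) (.c (-5525865796257757440000)))))))))) (.mul (.v 1) (.add (.c (-556380135796951065600000)) (.mul (.v 0) (.c (-67403783174687769600000)))))))))))) (.mul (.v 3) (.add (.add (.add (.c 5155656439222491611200) (.mul (.v 0) (.add (.c 27898887801972049568000) (.mul (.v 0) (.add (.c (-46584374114621366110400))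 (.mul (.v 0) (.add (.c 15636234455209111710720) (.mul (.v 0) (.add (.c 1939891767695798385280) (.mul (.v 0) (.c (-983983947671995200000)))))))))))) (.mul (.v 1) (.add (.add (.c (-1354377041397514456000)) (.mul (.v 0) (.add (.c 6913193341394312688000) (.mul (.v 0) (.add (.c 1256427403347258364800) (.mul (.v 0) (.add (.c (-3926538502763664556800)) (.mul (.v 0) (.add (.c 1299909984243696000000) (.mul (.v 0) (.c (-50854014610761600000)))))))))))) (.mul (.v 1) (.add (.c (-79737047882528279040000)) (.mul (.v 0) (.add (.c 56253600466567237440000) (.mul (.v 0) (.add (.c (-19428109074315708480000)) (.mul (.v 0) (.add (.c 33208156502332338240000) (.mul (.v 0) (.c (-5525865796257757440000)))))))))))))) (.mul (.v 3) (.add (.c 53498089980476064000) (.mul (.v 0) (.add (.c 16429361412512376000) (.mul (.v 0) (.add (.c 52881941178027043200) (.mul (.v 0) (.c 6814829019728044800))))))))))) (.mul (.v 2) (.mul (.v 2) (.add (.add (.add (.add (.c (-27057406728244513376000)) (.mul (.v 0) (.add (.c (-26889245192314526216000)) (.mul (.v 0) (.add (.c (-34074151482508326838400))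 (.mul (.v 0) (.c (-740572342798766073600)))))))) (.mul (.v 1) (.add (.add (.c (-4825341603736215680000)) (.mul (.v 0) (.add (.c (-10813119796612652000000)) (.mul (.v 0) (.c (-621893583419885760000)))))) (.mul (.v 1) (.add (.c 370920090531300710400000) (.mul (.v 0) (.c 44935855449791846400000))))))) (.mul (.v 3) (.add (.c 2764016918003859840000) (.mul (.v 0) (.add (.c 9273002263282517760000) (.mul (.v 0) (.c 1123396386244796160000))))))) (.mul (.v 2) (.mul (.v 2) (.add (.c 185460045265650355200000) (.mul (.v 0) (.c 22467927724895923200000)))))))))))) (.mul (.v 4) (.add (.add (.mul (.v 3) (.mul (.v 3) (.add (.add (.c (-2473467281636972720)) (.mul (.v 0) (.add (.c (-2790621727390571200)) (.mul (.v 0) (.add (.c 92715861556858210720) (.mul (.v 0) (.add (.c (-420585357390842865600)) (.mul (.v 0) (.add (.c 266588539034398287600) (.mul (.v 0) (.add (.c (-118444867466408802560)) (.mul (.v 0) (.c 15413785608144137760))))))))))))) (.mul (.v 1) (.add (.add (.c 1501802620356080000) (.mul (.v 0) (.add (.c (-65234046775131360000)) (.mul (.v 0) (.add (.c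 142787140767733280000) (.mul (.v 0) (.add (.c 24558087198453760000) (.mul (.v 0) (.add (.c 1028691316730560000) (.mul (.v 0) (.add (.c 20801411669102400000) (.mul (.v 0) (.c (-3993454203782400000)))))))))))))) (.mul (.v 1) (.add (.c 1932258717255888000) (.mul (.v 0) (.add (.c 120986885743734528000) (.mul (.v 0) (.add (.c (-542179998688189752000)) (.mul (.v 0) (.add (.c 914854587902656963200) (.mul (.v 0) (.add (.c (-481593569641942867200)) (.mul (.v 0) (.c 61331848654527360000))))))))))))))))) (.mul (.v 2) (.mul (.v 2) (.add (.add (.add (.add (.c 5522921965357489957600) (.mul (.v 0) (.add (.c (-12063780607859760382400)) (.mul (.v 0) (.add (.c (-3373393717859186387600)) (.mul (.v 0) (.add (.c 26714143442183328287360) (.mul (.v 0) (.add (.c (-13519118123926705295760)) (.mul (.v 0) (.add (.c (-1183071645640599338240)) (.mul (.v 0) (.c 756204172102933979040))))))))))))) (.mul (.v 1) (.add (.add (.c (-1277260512811388392000)) (.mul (.v 0) (.add (.c (-14874620822068117678400)) (.mul (.v 0) (.add (.c 28361116014911601017600) (.mul (.v 0) (.add (.c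 (-15586478192372775732800)) (.mul (.v 0) (.add (.c 2832253689238375165120) (.mul (.v 0) (.add (.c (-153644697252370235520)) (.mul (.v 0) (.add (.c 43064279644260000000) (.mul (.v 0) (.c (-12585333101600000)))))))))))))))) (.mul (.v 1) (.add (.add (.c 8632844488154527704000) (.mul (.v 0) (.add (.c (-60891550062698646256000)) (.mul (.v 0) (.add (.c 34461391369510445472000) (.mul (.v 0) (.add (.c (-51861131837462810427200)) (.mul (.v 0) (.add (.c 1058130834598370131200) (.mul (.v 0) (.c 1862695691719954560000))))))))))) (.mul (.v 1) (.add (.add (.c (-5698044458672265280000)) (.mul (.v 0) (.add (.c (-33132800104264399040000)) (.mul (.v 0) (.add (.c (-12104295371342989440000)) (.mul (.v 0) (.add (.c (-8685342051854025600000)) (.mul (.v 0) (.c 1819322059940501760000))))))))) (.mul (.v 1) (.add (.c 291104051302356364800000) (.mul (.v 0) (.add (.c 179091910230423321600000) (.mul (.v 0) (.c (-14870503077110553600000)))))))))))))) (.mul (.v 3) (.add (.add (.add (.c 353636123203830208000) (.mul (.v 0) (.add (.c (-20021275428330682918400)) (.mul (.v 0)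 (.add (.c 29757899257962990417600) (.mul (.v 0) (.add (.c (-9412269649238569868800)) (.mul (.v 0) (.add (.c (-1838921892714194740480)) (.mul (.v 0) (.c 739072113349512862080))))))))))) (.mul (.v 1) (.add (.add (.c 292147584037824648000) (.mul (.v 0) (.add (.c (-2980672819892409712000)) (.mul (.v 0) (.add (.c (-856278878602888488000)) (.mul (.v 0) (.add (.c 1966740554644302708800) (.mul (.v 0) (.add (.c (-680736126765608524800)) (.mul (.v 0) (.c 43373631779452800000))))))))))) (.mul (.v 1) (.add (.c (-5045085393411530880000)) (.mul (.v 0) (.add (.c (-22390095867276654720000)) (.mul (.v 0) (.add (.c (-7457734094656043520000)) (.mul (.v 0) (.add (.c (-9181025487757710720000)) (.mul (.v 0) (.c 1819322059940501760000))))))))))))) (.mul (.v 3) (.add (.c (-27990774163688112000)) (.mul (.v 0) (.add (.c (-50381978400879552000)) (.mul (.v 0) (.add (.c (-22893411677598072000)) (.mul (.v 0) (.add (.c (-16791634962469756800)) (.mul (.v 0) (.c 1239208589759212800))))))))))))) (.mul (.v 2) (.mul (.v 2) (.add (.add (.add (.add (.c 13830890951180733808000)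 (.mul (.v 0) (.add (.c 3045486861877087488000) (.mul (.v 0) (.add (.c 19589454657708693864000) (.mul (.v 0) (.add (.c 4485786168671039017600) (.mul (.v 0) (.c (-814160043471802809600)))))))))) (.mul (.v 1) (.add (.add (.c (-5061410966387833120000)) (.mul (.v 0) (.add (.c 6191529360237208160000) (.mul (.v 0) (.add (.c 1662047023613520960000) (.mul (.v 0) (.c (-247841717951842560000)))))))) (.mul (.v 1) (.add (.c (-194069367534904243200000)) (.mul (.v 0) (.add (.c (-119394606820282214400000)) (.mul (.v 0) (.c 9913668718073702400000))))))))) (.mul (.v 3) (.add (.c (-5748011085645400320000)) (.mul (.v 0) (.add (.c (-4562585517428789760000)) (.mul (.v 0) (.add (.c (-2984865170507055360000)) (.mul (.v 0) (.c 247841717951842560000))))))))) (.mul (.v 2) (.mul (.v 2) (.add (.c (-97034683767452121600000)) (.mul (.v 0) (.add (.c (-59697303410141107200000)) (.mul (.v 0) (.c 4956834359036851200000)))))))))))))) (.mul (.v 4) (.add (.add (.mul (.v 3) (.mul (.v 3) (.add (.add (.c 2631324487544612160) (.mul (.v 0) (.add (.c 9327385214332369520) (.mul (.v 0)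 (.add (.c (-22926847948741778560)) (.mul (.v 0) (.add (.c 149553616225163230880) (.mul (.v 0) (.add (.c (-93167275878979741600)) (.mul (.v 0) (.add (.c 47882365024186876000) (.mul (.v 0) (.c (-2853441731879444160)))))))))))))) (.mul (.v 1) (.add (.add (.c (-836274118002960000)) (.mul (.v 0) (.add (.c 23016928841301360000) (.mul (.v 0) (.add (.c (-48393031262211440000)) (.mul (.v 0) (.add (.c (-11831749596948400000)) (.mul (.v 0) (.add (.c 424695224885120000) (.mul (.v 0) (.add (.c (-14176430926015680000)) (.mul (.v 0) (.c 863291803046400000))))))))))))) (.mul (.v 1) (.add (.c 528426450397440000) (.mul (.v 0) (.add (.c (-8113981008723408000)) (.mul (.v 0) (.add (.c 71197530470081568000) (.mul (.v 0) (.add (.c (-132107175624226680000)) (.mul (.v 0) (.add (.c 74752629476650675200) (.mul (.v 0) (.c (-9337064019312960000)))))))))))))))))) (.mul (.v 2) (.mul (.v 2) (.add (.add (.add (.add (.c (-1234148104793243640000)) (.mul (.v 0) (.add (.c 2362974573280855570400) (.mul (.v 0) (.add (.c 1354514862935581625600) (.mul (.v 0) (.add (.c (-5385195695282274265200))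 (.mul (.v 0) (.add (.c 2065213131329962860960) (.mul (.v 0) (.add (.c 409933334675700372000) (.mul (.v 0) (.c (-96869488717190024640)))))))))))))) (.mul (.v 1) (.add (.add (.c (-401598053166129232000)) (.mul (.v 0) (.add (.c 4886637314811513408000) (.mul (.v 0) (.add (.c (-6634281558575119108800)) (.mul (.v 0) (.add (.c 2957737220024519889600) (.mul (.v 0) (.add (.c (-384845972883934464000)) (.mul (.v 0) (.add (.c 62127554540900728320) (.mul (.v 0) (.add (.c (-5284544367004000000)) (.mul (.v 0) (.c 69155769989600000))))))))))))))) (.mul (.v 1) (.add (.add (.c 1945121667912697960000) (.mul (.v 0) (.add (.c 10220433527626559496000) (.mul (.v 0) (.add (.c 6802037568190054344000) (.mul (.v 0) (.add (.c 9141390721634537200000) (.mul (.v 0) (.add (.c (-1690961871414878899200)) (.mul (.v 0) (.c (-54310077178600320000)))))))))))) (.mul (.v 1) (.add (.add (.c 12128872632702452480000) (.mul (.v 0) (.add (.c 1664141609879273280000) (.mul (.v 0) (.add (.c 10703631418908049600000) (.mul (.v 0) (.add (.c (-1432251850250954880000)) (.mul (.v 0) (.c (-47562043056030720000))))))))))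 (.mul (.v 1) (.mul (.v 0) (.add (.c (-111963096654752448000000)) (.mul (.v 0) (.c 14957335582063257600000)))))))))))) (.mul (.v 3) (.add (.add (.add (.c (-506760376650658312000)) (.mul (.v 0) (.add (.c 5237980305854344048000) (.mul (.v 0) (.add (.c (-5914222606936950932800)) (.mul (.v 0) (.add (.c 1414755313077114769600) (.mul (.v 0) (.add (.c 433006250278825496000) (.mul (.v 0) (.c (-79637391682021313280)))))))))))) (.mul (.v 1) (.add (.add (.c (-24873385917966040000)) (.mul (.v 0) (.add (.c 343316849726878552000) (.mul (.v 0) (.add (.c 90903909116570088000) (.mul (.v 0) (.add (.c (-215300136585823960000)) (.mul (.v 0) (.add (.c 92370250668033676800) (.mul (.v 0) (.c (-6748034122569600000)))))))))))) (.mul (.v 1) (.add (.c 11953203585574164480000) (.mul (.v 0) (.add (.c 720766651555198080000) (.mul (.v 0) (.add (.c 7540449741863337600000) (.mul (.v 0) (.add (.c (-933673997515512960000)) (.mul (.v 0) (.c (-47562043056030720000)))))))))))))) (.mul (.v 3) (.mul (.v 0) (.add (.c 27990774163688112000) (.mul (.v 0) (.add (.c (-3116111579596512000))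 (.mul (.v 0) (.add (.c 9996705058460040000) (.mul (.v 0) (.c (-1246444631838604800))))))))))))) (.mul (.v 2) (.mul (.v 2) (.add (.add (.add (.add (.c 1356369136909175200000) (.mul (.v 0) (.add (.c (-2116727361795048688000)) (.mul (.v 0) (.add (.c (-262408415158971872000)) (.mul (.v 0) (.add (.c (-4201515888119503640000)) (.mul (.v 0) (.c 818914123117963353600))))))))) (.mul (.v 1) (.add (.add (.c 2728019961674026880000) (.mul (.v 0) (.add (.c (-1272695390979578720000)) (.mul (.v 0) (.add (.c (-1298704745013381600000)) (.mul (.v 0) (.c 249288926367720960000))))))) (.mul (.v 1) (.mul (.v 0) (.add (.c 74642064436501632000000) (.mul (.v 0) (.c (-9971557054708838400000))))))))) (.mul (.v 3) (.add (.c 2985682577460065280000) (.mul (.v 0) (.add (.c (-290837080762341120000)) (.mul (.v 0) (.add (.c 1866051610912540800000) (.mul (.v 0) (.c (-249288926367720960000)))))))))) (.mul (.v 2) (.mul (.v 2) (.mul (.v 0) (.add (.c 37321032218250816000000) (.mul (.v 0) (.c (-4985778527354419200000)))))))))))))) (.mul (.v 4) (.add (.add (.mul (.v 3) (.mul (.v 3)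 (.add (.add (.c (-1817419983749059520)) (.mul (.v 0) (.add (.c (-10908572184678717760)) (.mul (.v 0) (.add (.c (-15377718181788427280)) (.mul (.v 0) (.add (.c (-16762537414261304320)) (.mul (.v 0) (.add (.c (-2492409706016746320)) (.mul (.v 0) (.add (.c 1604397173872360000) (.mul (.v 0) (.c (-3579063891822720000)))))))))))))) (.mul (.v 1) (.add (.add (.c 204599619013440000) (.mul (.v 0) (.add (.c (-1568475749595440000)) (.mul (.v 0) (.add (.c 1811007560314400000) (.mul (.v 0) (.add (.c 5054974517846400000) (.mul (.v 0) (.add (.c 324199579369120000) (.mul (.v 0) (.add (.c 2409603909773760000) (.mul (.v 0) (.c 1215345302377920000))))))))))))) (.mul (.v 1) (.add (.c (-453378807766080000)) (.mul (.v 0) (.add (.c (-7301637342861120000)) (.mul (.v 0) (.add (.c 19578357332392320000) (.mul (.v 0) (.add (.c (-34948716735179520000)) (.mul (.v 0) (.add (.c 21885756192861120000) (.mul (.v 0) (.c (-4249604999243520000)))))))))))))))))) (.mul (.v 2) (.mul (.v 2) (.add (.add (.add (.add (.c (-240668031434218360000)) (.mul (.v 0) (.add (.c 283988701819831680000)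 (.mul (.v 0) (.add (.c (-503562256795426080000)) (.mul (.v 0) (.add (.c (-1124193599343836840000)) (.mul (.v 0) (.add (.c 941779444696477520000) (.mul (.v 0) (.add (.c 75796540453157160000) (.mul (.v 0) (.c (-69612880183580160000)))))))))))))) (.mul (.v 1) (.add (.add (.c (-308418580423904440000)) (.mul (.v 0) (.add (.c (-389189236026429720000)) (.mul (.v 0) (.add (.c (-1960359680637034600000)) (.mul (.v 0) (.add (.c 938528434817552040000) (.mul (.v 0) (.add (.c (-192681411908473880000)) (.mul (.v 0) (.add (.c (-38654356439761440000)) (.mul (.v 0) (.add (.c (-8223817743574720000)) (.mul (.v 0) (.c (-261815162229600000)))))))))))))))) (.mul (.v 1) (.add (.add (.c 2587957078052547320000) (.mul (.v 0) (.add (.c 2523421436171864480000) (.mul (.v 0) (.add (.c (-185656621024490280000)) (.mul (.v 0) (.add (.c (-152294684935652000000)) (.mul (.v 0) (.add (.c 14804266683890880000) (.mul (.v 0) (.c (-3259086735179520000)))))))))))) (.mul (.v 1) (.add (.c 773232502379198400000) (.mul (.v 0) (.add (.c (-296264165631380800000)) (.mul (.v 0) (.c (-290415893063340800000))))))))))))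 (.mul (.v 3) (.add (.add (.c (-500544822664355560000)) (.mul (.v 0) (.add (.c (-479400293966970880000)) (.mul (.v 0) (.add (.c (-1950552862689836160000)) (.mul (.v 0) (.add (.c 688319414191123120000) (.mul (.v 0) (.add (.c 117514484248847560000) (.mul (.v 0) (.c (-69612880183580160000)))))))))))) (.mul (.v 1) (.add (.c 8966679322011320000) (.mul (.v 0) (.add (.c 105064557365542880000) (.mul (.v 0) (.add (.c 41877913076767320000) (.mul (.v 0) (.add (.c (-33359069040220000000)) (.mul (.v 0) (.add (.c 14804266683890880000) (.mul (.v 0) (.c (-3259086735179520000)))))))))))))))) (.mul (.v 2) (.mul (.v 2) (.add (.add (.c (-2122657193480241600000)) (.mul (.v 0) (.add (.c (-1909401063493879200000)) (.mul (.v 0) (.add (.c 350141114087968000000) (.mul (.v 0) (.c 118935615895432000000))))))) (.mul (.v 1) (.add (.c (-628674062193996000000)) (.mul (.v 0) (.add (.c 388721880130040800000) (.mul (.v 0) (.c 295258190959670400000))))))))))))) (.mul (.v 4) (.add (.add (.mul (.v 3) (.mul (.v 3) (.add (.add (.c 826571396563360000) (.mul (.v 0) (.add (.c 7397936204147846080)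 (.mul (.v 0) (.add (.c 18527061618538401280) (.mul (.v 0) (.add (.c 8101701109146313520) (.mul (.v 0) (.add (.c 7097331672337981760) (.mul (.v 0) (.add (.c (-3554800312364280000)) (.mul (.v 0) (.c 1037832097800960000))))))))))))) (.mul (.v 1) (.add (.add (.c (-21106914570000000)) (.mul (.v 0) (.add (.c (-809924352065920000)) (.mul (.v 0) (.add (.c 1846761799882720000) (.mul (.v 0) (.add (.c (-294383230318800000)) (.mul (.v 0) (.add (.c (-371308516003040000)) (.mul (.v 0) (.add (.c 675476106863040000) (.mul (.v 0) (.c (-430556939285760000)))))))))))))) (.mul (.v 1) (.mul (.v 0) (.add (.c 50375423085120000) (.mul (.v 0) (.add (.c 833682115022400000) (.mul (.v 0) (.add (.c (-1804847652478080000)) (.mul (.v 0) (.add (.c 3081036236140800000) (.mul (.v 0) (.c (-1062401249810880000))))))))))))))))) (.mul (.v 2) (.mul (.v 2) (.add (.add (.add (.add (.c (-7040656764850520000)) (.mul (.v 0) (.add (.c 363715253790592760000) (.mul (.v 0) (.add (.c 805059180864570800000) (.mul (.v 0) (.add (.c 388240025535726840000) (.mul (.v 0) (.add (.c (-127943567438236760000))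 (.mul (.v 0) (.add (.c (-113041778732450960000)) (.mul (.v 0) (.c (-17403220045895040000)))))))))))))) (.mul (.v 1) (.add (.add (.c 139998877456956560000) (.mul (.v 0) (.add (.c 1059635594109069600000) (.mul (.v 0) (.add (.c 1239014592249555240000) (.mul (.v 0) (.add (.c 427644808465970480000) (.mul (.v 0) (.add (.c 41140591977235800000) (.mul (.v 0) (.add (.c 58587610398293760000) (.mul (.v 0) (.add (.c 11465345354731520000) (.mul (.v 0) (.c 703269924772800000))))))))))))))) (.mul (.v 1) (.add (.add (.c (-2562202742062370400000)) (.mul (.v 0) (.add (.c (-3950657747477283360000)) (.mul (.v 0) (.add (.c (-730465625727779760000)) (.mul (.v 0) (.add (.c 107193554129626440000) (.mul (.v 0) (.add (.c 1867830382434240000) (.mul (.v 0) (.c (-814771683794880000)))))))))))) (.mul (.v 1) (.add (.c (-1048975135315307200000)) (.mul (.v 0) (.add (.c (-1007042818833520000000)) (.mul (.v 0) (.c 120595118503092800000))))))))))) (.mul (.v 3) (.add (.add (.c 294046116216567120000) (.mul (.v 0) (.add (.c 1316144548333304760000) (.mul (.v 0) (.add (.c 1280064750302291240000)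 (.mul (.v 0) (.add (.c 256151550520652920000) (.mul (.v 0) (.add (.c (-63691845589522640000)) (.mul (.v 0) (.c (-17403220045895040000)))))))))))) (.mul (.v 1) (.add (.c 8752149121458400000) (.mul (.v 0) (.add (.c 27832326710974240000) (.mul (.v 0) (.add (.c 28791109484647440000) (.mul (.v 0) (.add (.c (-14380839503765560000)) (.mul (.v 0) (.add (.c 1867830382434240000) (.mul (.v 0) (.c (-814771683794880000)))))))))))))))) (.mul (.v 2) (.mul (.v 2) (.add (.add (.c 2008347727468796000000) (.mul (.v 0) (.add (.c 3179373910808648000000) (.mul (.v 0) (.add (.c 517972784183736000000) (.mul (.v 0) (.c (-121574393633392000000)))))))) (.mul (.v 1) (.add (.c 864054107409634400000) (.mul (.v 0) (.add (.c 846436641672988800000) (.mul (.v 0) (.c (-131059264344002400000)))))))))))))) (.mul (.v 4) (.add (.add (.mul (.v 3) (.mul (.v 3) (.add (.add (.c (-243055567643560000)) (.mul (.v 0) (.add (.c (-3248396674846960000)) (.mul (.v 0) (.add (.c (-11276545051738066560)) (.mul (.v 0) (.add (.c (-12804237151250335680)) (.mul (.v 0) (.add (.c (-2988757643286763040))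 (.mul (.v 0) (.add (.c (-463202248725160000)) (.mul (.v 0) (.c 271241834492160000))))))))))))) (.mul (.v 1) (.add (.c 14547832649840000) (.mul (.v 0) (.add (.c 38968738019120000) (.mul (.v 0) (.add (.c 36802246854800000) (.mul (.v 0) (.add (.c (-463451798484080000)) (.mul (.v 0) (.add (.c (-124067817803440000)) (.mul (.v 0) (.add (.c 16024363850880000) (.mul (.v 0) (.c (-103072738930560000)))))))))))))))))) (.mul (.v 2) (.mul (.v 2) (.add (.add (.add (.add (.c 27226663938010880000) (.mul (.v 0) (.add (.c (-194438063120542360000)) (.mul (.v 0) (.add (.c (-802156070718552480000)) (.mul (.v 0) (.add (.c (-617604530501036120000)) (.mul (.v 0) (.add (.c 131777438400995800000) (.mul (.v 0) (.c 121911879502452760000))))))))))) (.mul (.v 1) (.add (.add (.c (-2228172717065120000)) (.mul (.v 0) (.add (.c (-565252265978319640000)) (.mul (.v 0) (.add (.c (-1249359465729051320000)) (.mul (.v 0) (.add (.c (-659206582064323160000)) (.mul (.v 0) (.add (.c (-177316981317617120000)) (.mul (.v 0) (.add (.c (-99836221141927200000)) (.mul (.v 0) (.add (.c (-22308839462229600000))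 (.mul (.v 0) (.c (-1361174043028800000)))))))))))))))) (.mul (.v 1) (.add (.add (.c 1817163378073647240000) (.mul (.v 0) (.add (.c 3894689707550853400000) (.mul (.v 0) (.add (.c 1388178213699265800000) (.mul (.v 0) (.c (-45947271374930520000)))))))) (.mul (.v 1) (.add (.c 802898937334312000000) (.mul (.v 0) (.add (.c 1366714544040137600000) (.mul (.v 0) (.c 233810316454321600000))))))))))) (.mul (.v 3) (.add (.add (.c (-136803901856931400000)) (.mul (.v 0) (.add (.c (-818498315374257000000)) (.mul (.v 0) (.add (.c (-1285994501832614560000)) (.mul (.v 0) (.add (.c (-455582031078779080000)) (.mul (.v 0) (.c 27037994076363480000))))))))) (.mul (.v 1) (.add (.c (-14802080552839160000)) (.mul (.v 0) (.add (.c (-38485899899881000000)) (.mul (.v 0) (.add (.c (-56320529874751800000)) (.mul (.v 0) (.c (-10888128973962520000)))))))))))) (.mul (.v 2) (.mul (.v 2) (.add (.add (.c (-1335250165273970400000)) (.mul (.v 0) (.add (.c (-3022128776369029600000)) (.mul (.v 0) (.add (.c (-1101715785444702400000)) (.mul (.v 0) (.c 35059142400968000000))))))) (.mul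 (.v 1) (.add (.c (-632871294826887200000)) (.mul (.v 0) (.add (.c (-1164409870002041600000)) (.mul (.v 0) (.c (-217762579478992800000)))))))))))))) (.mul (.v 4) (.add (.add (.mul (.v 3) (.mul (.v 3) (.add (.add (.c 40268255135080000) (.mul (.v 0) (.add (.c 923127153495120000) (.mul (.v 0) (.add (.c 4876573304633800000) (.mul (.v 0) (.add (.c 7940962678808320000) (.mul (.v 0) (.add (.c 3751742569873480000) (.mul (.v 0) (.c 215585034036680000))))))))))) (.mul (.v 1) (.add (.c (-3646094812080000)) (.mul (.v 0) (.add (.c (-13603588665520000)) (.mul (.v 0) (.add (.c 58480750880160000) (.mul (.v 0) (.add (.c 146507840336480000) (.mul (.v 0) (.c 44063337623760000))))))))))))) (.mul (.v 2) (.mul (.v 2) (.add (.add (.add (.add (.c (-25144128783417280000)) (.mul (.v 0) (.add (.c 35498911785315440000) (.mul (.v 0) (.add (.c 466652902813476960000) (.mul (.v 0) (.add (.c 573512382480506560000) (.mul (.v 0) (.add (.c (-32588255325430840000)) (.mul (.v 0) (.c (-131615425777659880000)))))))))))) (.mul (.v 1) (.add (.add (.c (-42577974194809760000)) (.mul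 (.v 0) (.add (.c 137132488797177720000) (.mul (.v 0) (.add (.c 745569795185943000000) (.mul (.v 0) (.add (.c 625822240309962920000) (.mul (.v 0) (.add (.c 223767242663022520000) (.mul (.v 0) (.add (.c 117843272840596800000) (.mul (.v 0) (.add (.c 29709233744428000000) (.mul (.v 0) (.c 1904922098794400000))))))))))))))) (.mul (.v 1) (.add (.add (.c (-924521225299826000000)) (.mul (.v 0) (.add (.c (-2680412339525115720000)) (.mul (.v 0) (.add (.c (-1380367925807704680000)) (.mul (.v 0) (.c (-29981279986673120000)))))))) (.mul (.v 1) (.add (.c (-412844830996684800000)) (.mul (.v 0) (.add (.c (-1021768005575217600000)) (.mul (.v 0) (.c (-317739408724830400000)))))))))))) (.mul (.v 3) (.add (.add (.c 44876942427248680000) (.mul (.v 0) (.add (.c 355762739143412160000) (.mul (.v 0) (.add (.c 786207546356343720000) (.mul (.v 0) (.add (.c 438755892904000280000) (.mul (.v 0) (.c 6985907495537320000))))))))) (.mul (.v 1) (.add (.c 10236336942286000000) (.mul (.v 0) (.add (.c 28627180698721080000) (.mul (.v 0) (.add (.c 40026765529432920000) (.mul (.v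 0) (.c 15017788129622880000))))))))))) (.mul (.v 2) (.mul (.v 2) (.add (.add (.c 628814762293060000000) (.mul (.v 0) (.add (.c 1965190269284642400000) (.mul (.v 0) (.add (.c 1071955023970465600000) (.mul (.v 0) (.c 44999068116296000000))))))) (.mul (.v 1) (.add (.c 303320063065017600000) (.mul (.v 0) (.add (.c 838731589847228000000) (.mul (.v 0) (.c 300355762592407200000))))))))))))) (.mul (.v 4) (.add (.add (.mul (.v 3) (.mul (.v 3) (.add (.add (.c (-2544170801200000)) (.mul (.v 0) (.add (.c (-143070404226680000)) (.mul (.v 0) (.add (.c (-1330735212042040000)) (.mul (.v 0) (.add (.c (-3342312135119720000)) (.mul (.v 0) (.add (.c (-2297378968583720000)) (.mul (.v 0) (.c (-219912830305840000)))))))))))) (.mul (.v 1) (.add (.c 627530046080000) (.mul (.v 0) (.add (.c 4078480342160000) (.mul (.v 0) (.add (.c (-19847831017280000)) (.mul (.v 0) (.add (.c (-71235238611600000)) (.mul (.v 0) (.c (-30610826835120000)))))))))))))) (.mul (.v 2) (.mul (.v 2) (.add (.add (.add (.add (.c 11710813367340920000) (.mul (.v 0) (.add (.c 21770634851464520000)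 (.mul (.v 0) (.add (.c (-149002496829875360000)) (.mul (.v 0) (.add (.c (-336657051641179080000)) (.mul (.v 0) (.add (.c (-43730887733322720000)) (.mul (.v 0) (.c 108580003326043480000))))))))))) (.mul (.v 1) (.add (.add (.c 29183538820720760000) (.mul (.v 0) (.add (.c 43152073911025520000) (.mul (.v 0) (.add (.c (-273819561346171400000)) (.mul (.v 0) (.add (.c (-390501174471270520000)) (.mul (.v 0) (.add (.c (-176270026844828280000)) (.mul (.v 0) (.add (.c (-101760663168074400000)) (.mul (.v 0) (.add (.c (-28637384754759200000)) (.mul (.v 0) (.c (-1910223366223200000)))))))))))))))) (.mul (.v 1) (.add (.add (.c 320209846819404360000) (.mul (.v 0) (.add (.c 1293152993623513120000) (.mul (.v 0) (.add (.c 891343352990365800000) (.mul (.v 0) (.c 47880960319221680000))))))) (.mul (.v 1) (.add (.c 141455177861872000000) (.mul (.v 0) (.add (.c 506394043404939200000) (.mul (.v 0) (.c 218869068240905600000))))))))))) (.mul (.v 3) (.add (.add (.c (-9960875458546040000)) (.mul (.v 0) (.add (.c (-102588605762969480000)) (.mul (.v 0) (.add (.c (-325540175564033640000))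 (.mul (.v 0) (.add (.c (-265678836669267840000)) (.mul (.v 0) (.c (-10393713833879880000)))))))))) (.mul (.v 1) (.add (.c (-4240419092664440000)) (.mul (.v 0) (.add (.c (-14338514114096480000)) (.mul (.v 0) (.add (.c (-18182531447064600000)) (.mul (.v 0) (.c (-10293014751010320000)))))))))))) (.mul (.v 2) (.mul (.v 2) (.add (.add (.c (-199727553942218400000)) (.mul (.v 0) (.add (.c (-885394209361989600000)) (.mul (.v 0) (.add (.c (-662391926850752000000)) (.mul (.v 0) (.c (-58173975070232000000)))))))) (.mul (.v 1) (.add (.c (-94533004426616000000)) (.mul (.v 0) (.add (.c (-390468689088592800000)) (.mul (.v 0) (.c (-205860295020340800000)))))))))))))) (.mul (.v 4) (.add (.add (.mul (.v 3) (.mul (.v 3) (.add (.add (.c (-11373108040000)) (.mul (.v 0) (.add (.c 7624547190680000) (.mul (.v 0) (.add (.c 189733237502200000) (.mul (.v 0) (.add (.c 868180749201080000) (.mul (.v 0) (.add (.c 919774028217240000) (.mul (.v 0) (.c 111982855778360000))))))))))) (.mul (.v 1) (.add (.c (-55223350000000)) (.mul (.v 0) (.add (.c (-955070855200000)) (.mul (.v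 0) (.add (.c 3178417416160000) (.mul (.v 0) (.add (.c 22315097431760000) (.mul (.v 0) (.c 13293798147280000))))))))))))) (.mul (.v 2) (.mul (.v 2) (.add (.add (.add (.add (.c (-2968381418794960000)) (.mul (.v 0) (.add (.c (-15365487313516480000)) (.mul (.v 0) (.add (.c 16031794369052280000) (.mul (.v 0) (.add (.c 110189884039866400000) (.mul (.v 0) (.add (.c 52765184276271320000) (.mul (.v 0) (.c (-59514082471820480000)))))))))))) (.mul (.v 1) (.add (.add (.c (-9229898412779800000)) (.mul (.v 0) (.add (.c (-49961691289044640000)) (.mul (.v 0) (.add (.c 37583689862457200000) (.mul (.v 0) (.add (.c 165952636268181840000) (.mul (.v 0) (.add (.c 93615292155054600000) (.mul (.v 0) (.add (.c 62451382007464800000) (.mul (.v 0) (.add (.c 19431824231276800000) (.mul (.v 0) (.c 1338275512823200000))))))))))))))) (.mul (.v 1) (.add (.add (.c (-67357287827917640000)) (.mul (.v 0) (.add (.c (-414745033097902360000)) (.mul (.v 0) (.add (.c (-377137099022678400000)) (.mul (.v 0) (.c (-28094391538897320000)))))))) (.mul (.v 1) (.add (.c (-29307050726934400000))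 (.mul (.v 0) (.add (.c (-165020142579689600000)) (.mul (.v 0) (.c (-93549212408254400000)))))))))))) (.mul (.v 3) (.add (.add (.c 1443435779579360000) (.mul (.v 0) (.add (.c 17650247297746840000) (.mul (.v 0) (.add (.c 83966051654410240000) (.mul (.v 0) (.add (.c 107274897103865120000) (.mul (.v 0) (.c 3923489470614000000))))))))) (.mul (.v 1) (.add (.c 1024335790642360000) (.mul (.v 0) (.add (.c 4931973499516840000) (.mul (.v 0) (.add (.c 5187247445923200000) (.mul (.v 0) (.c 4357431301182680000))))))))))) (.mul (.v 2) (.mul (.v 2) (.add (.add (.c 38176028873785600000) (.mul (.v 0) (.add (.c 262444605115453600000) (.mul (.v 0) (.add (.c 266169848042033600000) (.mul (.v 0) (.c 32451822840080000000))))))) (.mul (.v 1) (.add (.c 17297636013022400000) (.mul (.v 0) (.add (.c 116234409908724800000) (.mul (.v 0) (.c 87148626023575200000))))))))))))) (.mul (.v 4) (.add (.add (.mul (.v 3) (.mul (.v 3) (.add (.mul (.v 0) (.add (.c 22746216080000) (.mul (.v 0) (.add (.c (-7616581977760000)) (.mul (.v 0) (.add (.c (-111328282864680000)) (.mul (.v 0)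 (.add (.c (-221386638038720000)) (.mul (.v 0) (.c (-31421356531880000))))))))))) (.mul (.v 1) (.mul (.v 0) (.add (.c 110446700000000) (.mul (.v 0) (.add (.c 27551572160000) (.mul (.v 0) (.add (.c (-4007896610480000)) (.mul (.v 0) (.c (-3411510398800000))))))))))))) (.mul (.v 2) (.mul (.v 2) (.add (.add (.add (.add (.c 346842121080840000) (.mul (.v 0) (.add (.c 4117962962543920000) (.mul (.v 0) (.add (.c 2978550885182040000) (.mul (.v 0) (.add (.c (-14410097257942400000)) (.mul (.v 0) (.add (.c (-21524776889519120000)) (.mul (.v 0) (.c 18717684436823680000))))))))))) (.mul (.v 1) (.add (.add (.c 1204402373565160000) (.mul (.v 0) (.add (.c 17449002852992760000) (.mul (.v 0) (.add (.c 15426983184520040000) (.mul (.v 0) (.add (.c (-44629222802958360000)) (.mul (.v 0) (.add (.c (-33172835345884640000)) (.mul (.v 0) (.add (.c (-25794156111544800000)) (.mul (.v 0) (.add (.c (-8798148003708000000)) (.mul (.v 0) (.c (-622015379216000000)))))))))))))))) (.mul (.v 1) (.add (.add (.c 6458537773583560000) (.mul (.v 0) (.add (.c 78410842628620880000) (.mul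 (.v 0) (.add (.c 95634879150594840000) (.mul (.v 0) (.c 8505330698991280000))))))) (.mul (.v 1) (.add (.c 2779080108145600000) (.mul (.v 0) (.add (.c 31997138154587200000) (.mul (.v 0) (.c 23564964717817600000))))))))))) (.mul (.v 3) (.add (.add (.c (-125210126017760000)) (.mul (.v 0) (.add (.c (-1639164851687440000)) (.mul (.v 0) (.add (.c (-10435398759653280000)) (.mul (.v 0) (.add (.c (-26405559861068640000)) (.mul (.v 0) (.c (-693558826312240000)))))))))) (.mul (.v 1) (.add (.c (-111814206418040000)) (.mul (.v 0) (.add (.c (-1072111003161520000)) (.mul (.v 0) (.add (.c (-813892231075560000)) (.mul (.v 0) (.c (-1085070274112720000)))))))))))) (.mul (.v 2) (.mul (.v 2) (.add (.add (.c (-3285175990000800000)) (.mul (.v 0) (.add (.c (-45175863722035200000)) (.mul (.v 0) (.add (.c (-63939081869555200000)) (.mul (.v 0) (.c (-9590400973104000000)))))))) (.mul (.v 1) (.add (.c (-1389540054072800000)) (.mul (.v 0) (.add (.c (-19744392497496800000)) (.mul (.v 0) (.c (-21701405482108800000)))))))))))))) (.mul (.v 4) (.add (.add (.mul (.v 3) (.mul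 (.v 3) (.add (.mul (.v 0) (.mul (.v 0) (.add (.c (-11373108040000)) (.mul (.v 0) (.add (.c 2536205588280000) (.mul (.v 0) (.add (.c 24397194454080000) (.mul (.v 0) (.c 3869515028120000))))))))) (.mul (.v 1) (.mul (.v 0) (.mul (.v 0) (.add (.c (-55223350000000)) (.mul (.v 0) (.add (.c 299989236960000) (.mul (.v 0) (.c 397093664240000))))))))))) (.mul (.v 2) (.mul (.v 2) (.add (.add (.add (.mul (.v 0) (.add (.c (-529425442661640000)) (.mul (.v 0) (.add (.c (-889591369979760000)) (.mul (.v 0) (.add (.c 43474574586800000) (.mul (.v 0) (.add (.c 1830439811371360000) (.mul (.v 0) (.c (-2388186043798240000))))))))))) (.mul (.v 1) (.add (.mul (.v 0) (.add (.c (-2325583865037160000)) (.mul (.v 0) (.add (.c (-8060711079094240000)) (.mul (.v 0) (.add (.c 6087589098234560000) (.mul (.v 0) (.add (.c 7201768609466200000) (.mul (.v 0) (.add (.c 6428205606849600000) (.mul (.v 0) (.add (.c 2385173421344000000) (.mul (.v 0) (.c 172333265255200000)))))))))))))) (.mul (.v 1) (.add (.mul (.v 0) (.add (.c (-6458537773583560000)) (.mul (.v 0) (.add (.c (-11053554800703240000))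 (.mul (.v 0) (.c (-1099692872096840000))))))) (.mul (.v 1) (.mul (.v 0) (.add (.c (-2779080108145600000)) (.mul (.v 0) (.c (-2690087427652800000))))))))))) (.mul (.v 3) (.add (.mul (.v 0) (.add (.c 125210126017760000) (.mul (.v 0) (.add (.c 99625269634800000) (.mul (.v 0) (.add (.c 2791006665955200000) (.mul (.v 0) (.c 151171542379200000)))))))) (.mul (.v 1) (.mul (.v 0) (.add (.c 111814206418040000) (.mul (.v 0) (.add (.c 47775212519160000) (.mul (.v 0) (.c 122337824223160000)))))))))) (.mul (.v 2) (.mul (.v 2) (.add (.mul (.v 0) (.add (.c 3285175990000800000) (.mul (.v 0) (.add (.c 6999834848249600000) (.mul (.v 0) (.c 1222030696320000000)))))) (.mul (.v 1) (.mul (.v 0) (.add (.c 1389540054072800000) (.mul (.v 0) (.c 2446756484474400000)))))))))))) (.mul (.v 4) (.mul (.v 2) (.mul (.v 2) (.add (.add (.mul (.v 0) (.mul (.v 0) (.add (.c 182583321580800000) (.mul (.v 0) (.add (.c (-259990173769200000)) (.mul (.v 0) (.add (.c 632648486406720000) (.mul (.v 0) (.c (-78642990528480000)))))))))) (.mul (.v 1) (.mul (.v 0) (.mul (.v 0) (.add (.c 1121181491472000000)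 (.mul (.v 0) (.add (.c (-158393361118720000)) (.mul (.v 0) (.add (.c (-736419814430720000)) (.mul (.v 0) (.add (.c (-730335385180800000)) (.mul (.v 0) (.add (.c (-292761263088000000)) (.mul (.v 0) (.c (-21541658163200000)))))))))))))))) (.mul (.v 3) (.mul (.v 0) (.mul (.v 0) (.mul (.v 0) (.add (.c 96103802473280000) (.mul (.v 0) (.c (-44979745502720000))))))))))))))))))))))))))))))))))))))))))))

/-- the coefficients and the Bernstein coefficients -/
def L : List (Nat × PE) := [
  (1, Vale.Agent.P224.S9.K.K0.P),
  (1, Vale.Agent.P224.S9.K.K1.P),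
  (2, Vale.Agent.P224.S9.K.K2.P),
  (10, Vale.Agent.P224.S9.K.K3.P),
  (5, Vale.Agent.P224.S9.K.K4.P),
  (1, Vale.Agent.P224.S9.K.K5.P),
  (1, Vale.Agent.P224.S9.K.K6.P),
  (1, Vale.Agent.P224.S9.K.K7.P),
  (5, Vale.Agent.P224.S9.K.K8.P),
  (5, Vale.Agent.P224.S9.K.K9.P),
  (1, Vale.Agent.P224.S9.K.K10.P),
  (1, Vale.Agent.P224.S9.K.K11.P),
  (1, Vale.Agent.P224.S9.K.K12.P),
  (5, Vale.Agent.P224.S9.K.K13.P),
  (10, Vale.Agent.P224.S9.K.K14.P),
  (4, Vale.Agent.P224.S9.K.K15.P),
  (1, Vale.Agent.P224.S9.K.K16.P),
  (1, Vale.Agent.P224.S9.K.K17.P)]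

/-- the integers replacing the first four variables -/
def Ms : List Nat := [
  Nat.add (Nat.pow 2 104) 1075527200898229613,
  Nat.add (Nat.pow 2 798) 1070408644019699239,
  Nat.add (Nat.pow 2 3495) 1026802302190162061,
  Nat.add (Nat.pow 2 21272) 836924351570040769]

set_option maxRecDepth 100000 in
/-- **The identity**, checked by the kernel. -/
theorem idT : chk Ms (.sub (.mul (.c (Int.ofNat 1)) Q) (tsum 1 0 1 17 L 0)) = true := by
  decide +kernel

/-- **Positivity** on the interval. -/
theorem posT {E : Type*} [NormedAddCommGroup E] [InnerProductSpace ℝ E] {x N y w : E}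
    (hx : ‖x‖ = 1) (hN : ‖N‖ = 1) (hy : ‖y‖ = 1) (hw : ‖w‖ = 1)
    (hxN : ⟪x, N⟫ = 0) (hyw : ⟪y, w⟫ = 0) {T : ℝ}
    (h0 : ((0 : ℤ) : ℝ) ≤ ((1 : ℤ) : ℝ) * T) (h1 : ((1 : ℤ) : ℝ) * T ≤ ((1 : ℤ) : ℝ)) :
    0 ≤ PE.ev (vT T ⟪x, y⟫ ⟪x, w⟫ ⟪N, y⟫ ⟪N, w⟫) Q :=
  pos_of_tsum 1 0 1 1 17 (by norm_num) idT
    (fun i hi => vT_ge _ _ _ _ _ (le_trans (by decide) hi)) h0 h1
    (pl_cons (Vale.Agent.P224.S9.K.K0.pos hx hN hy hw hxN hyw T) (pl_cons (Vale.Agent.P224.S9.K.K1.pos hx hN hy hw hxN hyw T) (pl_cons (Vale.Agent.P224.S9.K.K2.pos hx hN hy hw hxN hyw T) (pl_cons (Vale.Agent.P224.S9.K.K3.pos hx hN hy hw hxN hyw T) (pl_cons (Vale.Agent.P224.S9.K.K4.pos hx hN hy hw hxN hyw T) (pl_cons (Vale.Agent.P224.S9.K.K5.pos hx hN hy hw hxN hyw T) (pl_cons (Vale.Agent.P224.S9.K.K6.pos hx hN hy hw hxN hyw T) (pl_cons (Vale.Agent.P224.S9.K.K7.pos hx hN hy hw hxN hyw T) (pl_cons (Vale.Agent.P224.S9.K.K8.pos hx hN hy hw hxN hyw T) (pl_cons (Vale.Agent.P224.S9.K.K9.pos hx hN hy hw hxN hyw T) (pl_cons (Vale.Agent.P224.S9.K.K10.pos hx hN hy hw hxN hyw T) (pl_cons (Vale.Agent.P224.S9.K.K11.pos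 hx hN hy hw hxN hyw T) (pl_cons (Vale.Agent.P224.S9.K.K12.pos hx hN hy hw hxN hyw T) (pl_cons (Vale.Agent.P224.S9.K.K13.pos hx hN hy hw hxN hyw T) (pl_cons (Vale.Agent.P224.S9.K.K14.pos hx hN hy hw hxN hyw T) (pl_cons (Vale.Agent.P224.S9.K.K15.pos hx hN hy hw hxN hyw T) (pl_cons (Vale.Agent.P224.S9.K.K16.pos hx hN hy hw hxN hyw T) (pl_cons (Vale.Agent.P224.S9.K.K17.pos hx hN hy hw hxN hyw T) pl_nil))))))))))))))))))

end

end Vale.Agent.P224.S9.K.TS
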